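import Vale.Agent.P088.R2.H676.F.Fin
import Vale.Agent.P088.R2.H856.O.H5p
import Vale.Agent.P088.R2.H867.Z.HoL

/-!
# Zone B1: the weights on the package (`Wt`, `Wc`, `Wk`)

`e = E²`, `h = (1 + m) / E`, `hi = E / (1 + m)`, `wc = E (N + 1 + m)² / (1 + m)` (or `E (1 + m)`),
`dt = η² / (1 + m)²`.
-/

open MeasureTheory Set Filter
open scoped ContDiff Topology

noncomputable section

namespace Vale.Agent.P088.R2.H593.B1

open Vale.Agent.P088.LR Vale.Agent.P088.HY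
open Vale.Agent.P088.R2.H464.EP (Sm TE Dat)
open Vale.Agent.P088.R2.H516.B (mu Wd)
open Vale.Agent.P088.R2.H676.F (Wt Wc Wk)
open Vale.Agent.P088.R2.H31.EP
open Vale.Agent.P088.R2.H856.O (dB hB wB)
open Vale.Agent.P088.R2.H961.F (CD)

/-! ## The inverse of `mu` -/

/-- `1 / mu` for the data of a cell. -/
def wdT {n : ℕ} (c : CD n) : Wd c.T where
  he z := by
    rw [H961.F.T_e]
    exact mul_pos c.hE (Real.exp_pos _)
  mi := ⟨fun z => ((mu c.T : VV n → ℝ) z)⁻¹, (H464.EP.scd (mu c.T)).inv fun z => by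
    have := H961.F.mu_ge (fun _ : Unit => c) () z
    exact (by linarith : (0 : ℝ) < (mu c.T : VV n → ℝ) z).ne'⟩
  hmi := by
    ext z
    change (mu c.T : VV n → ℝ) z * ((mu c.T : VV n → ℝ) z)⁻¹ = 1
    have := H961.F.mu_ge (fun _ : Unit => c) () z
    exact mul_inv_cancel₀ (by linarith : (0 : ℝ) < (mu c.T : VV n → ℝ) z).ne'

/-! ## The comparison of the weights -/

section cmp

variable {ι F : Type} [Fintype ι] [DecidableEq ι] [NormedAddCommGroup F] [NormedSpace ℝ F]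

/-- The model against the true quantities at a point. -/
structure Cmp (T : Dat ι F) (Nf : Sm F) (E m N : F → ℝ) (z : F) : Prop where
  E0 : 0 < E z
  m0 : 0 ≤ m z
  N0 : 0 ≤ N z
  e2 : E z ≤ 2 * (T.e : F → ℝ) z
  m1 : 1 + m z ≤ 2 * (mu T : F → ℝ) z
  m2 : (mu T : F → ℝ) z ≤ 2 * (1 + m z)
  n1 : N z ≤ 2 * (Nf : F → ℝ) z

variable {T : Dat ι F} {Nf : Sm F} {E m N : F → ℝ} {z : F}

theorem Cmp.mi1 (w : Wd T) (h : Cmp T Nf E m N z) : (1 + m z)⁻¹ ≤ 2 * (w.mi : F → ℝ) z := by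
  have a := H856.B.mi_val w z
  have b := H856.B.mi_pos w z
  have c := H856.B.mu_ge w z
  have hm := h.m0
  rw [inv_le_iff_one_le_mul₀ (by linarith)]
  calc (1 : ℝ) = (mu T : F → ℝ) z * (w.mi : F → ℝ) z := a.symm
    _ ≤ 2 * (1 + m z) * (w.mi : F → ℝ) z := mul_le_mul_of_nonneg_right h.m2 b.le
    _ = _ := by ring

theorem Cmp.mi2 (w : Wd T) (h : Cmp T Nf E m N z) : (w.mi : F → ℝ) z ≤ 2 * (1 + m z)⁻¹ := by
  have a := H856.B.mi_val w z
  have b := H856.B.mi_pos w z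
  have hm := h.m0
  rw [← div_eq_mul_inv, le_div_iff₀ (by linarith)]
  calc (w.mi : F → ℝ) z * (1 + m z) ≤ (w.mi : F → ℝ) z * (2 * (mu T : F → ℝ) z) :=
        mul_le_mul_of_nonneg_left h.m1 b.le
    _ = 2 * ((mu T : F → ℝ) z * (w.mi : F → ℝ) z) := by ring
    _ = 2 := by rw [a, mul_one]

/-- `E² ≤ 4 T.e²`. -/
theorem Cmp.e (h : Cmp T Nf E m N z) : E z ^ 2 ≤ 4 * (T.e : F → ℝ) z ^ 2 := by
  have h1 := pow_le_pow_left₀ h.E0.le h.e2 2
  linarith [mul_pow 2 ((T.e : F → ℝ) z) 2]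

/-- `E / (1 + m) ≤ 4 T.e mi`. -/
theorem Cmp.hi (w : Wd T) (h : Cmp T Nf E m N z) :
    E z / (1 + m z) ≤ 4 * ((T.e : F → ℝ) z * (w.mi : F → ℝ) z) := by
  have hm := h.m0
  have h1 : (0 : ℝ) ≤ (1 + m z)⁻¹ := by positivity
  rw [div_eq_mul_inv]
  calc E z * (1 + m z)⁻¹ ≤ (2 * (T.e : F → ℝ) z) * (2 * (w.mi : F → ℝ) z) :=
        mul_le_mul h.e2 (h.mi1 w) h1 (by linarith [w.he z])
    _ = _ := by ring

/-- `E (N + 1 + m)² / (1 + m) ≤ 16 T.e mi (Nf + mu)²`. -/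
theorem Cmp.wc (w : Wd T) (h : Cmp T Nf E m N z) :
    E z * (N z + 1 + m z) ^ 2 / (1 + m z) ≤ 16 * ((T.e : F → ℝ) z * (w.mi : F → ℝ) z *
      ((Nf : F → ℝ) z + (mu T : F → ℝ) z) ^ 2) := by
  have hm := h.m0
  have hN := h.N0
  have he := w.he z
  have hi := H856.B.mi_pos w z
  have h1 := h.hi w
  have h2 : N z + 1 + m z ≤ 2 * ((Nf : F → ℝ) z + (mu T : F → ℝ) z) := by
    linarith [h.m1, h.n1]
  have h3 := pow_le_pow_left₀ (by linarith) h2 2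
  calc E z * (N z + 1 + m z) ^ 2 / (1 + m z) = E z / (1 + m z) * (N z + 1 + m z) ^ 2 := by ring
    _ ≤ 4 * ((T.e : F → ℝ) z * (w.mi : F → ℝ) z) *
        (2 * ((Nf : F → ℝ) z + (mu T : F → ℝ) z)) ^ 2 :=
        mul_le_mul h1 h3 (sq_nonneg _) (by positivity)
    _ = _ := by ring

/-- `E (1 + m) ≤ 16 T.e mi (Nf + mu)²`. -/
theorem Cmp.wc' (w : Wd T) (h : Cmp T Nf E m N z) :
    E z * (1 + m z) ≤ 16 * ((T.e : F → ℝ) z * (w.mi : F → ℝ) z *
      ((Nf : F → ℝ) z + (mu T : F → ℝ) z) ^ 2) := by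
  refine le_trans ?_ (h.wc w)
  have hm := h.m0
  have hN := h.N0
  have hE := h.E0
  rw [le_div_iff₀ (by linarith)]
  calc E z * (1 + m z) * (1 + m z) = E z * (1 + m z) ^ 2 := by ring
    _ ≤ _ := mul_le_mul_of_nonneg_left (pow_le_pow_left₀ (by linarith) (by linarith) 2) hE.le

/-- `T.e' mu ≤ 4 (1 + m) / E`. -/
theorem Cmp.h (w : Wd T) (h : Cmp T Nf E m N z) :
    (T.e' : F → ℝ) z * (mu T : F → ℝ) z ≤ 4 * ((1 + m z) / E z) := by
  have hm := h.m0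
  have hE := h.E0
  have he := w.he z
  have h1 := H856.B.e'_val (S := T) z
  have h2 := H856.B.e'_pos w z
  have h3 : (T.e' : F → ℝ) z ≤ 2 / E z := by
    rw [le_div_iff₀ hE]
    calc (T.e' : F → ℝ) z * E z ≤ (T.e' : F → ℝ) z * (2 * (T.e : F → ℝ) z) :=
          mul_le_mul_of_nonneg_left h.e2 h2.le
      _ = 2 * ((T.e : F → ℝ) z * (T.e' : F → ℝ) z) := by ring
      _ = 2 := by rw [h1, mul_one]
  have h4 := H856.B.mu_ge w z
  calc (T.e' : F → ℝ) z * (mu T : F → ℝ) z ≤ 2 / E z * (2 * (1 + m z)) :=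
        mul_le_mul h3 h.m2 (by linarith) (by positivity)
    _ = _ := by ring

/-- `(eta mi)² ≤ 4 (eta' / (1 + m))²`. -/
theorem Cmp.d (w : Wd T) (h : Cmp T Nf E m N z) {eta eta' : ℝ} (h0 : 0 ≤ eta)
    (h1 : eta ≤ eta') : (eta * (w.mi : F → ℝ) z) ^ 2 ≤ 4 * (eta' ^ 2 / (1 + m z) ^ 2) := by
  have hm := h.m0
  have hi := H856.B.mi_pos w z
  have h2 : eta * (w.mi : F → ℝ) z ≤ eta' * (2 * (1 + m z)⁻¹) :=
    mul_le_mul h1 (h.mi2 w) hi.le (h0.trans h1)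
  have h3 := pow_le_pow_left₀ (by positivity) h2 2
  refine h3.trans (le_of_eq ?_)
  have : (1 + m z) ≠ 0 := by positivity
  field_simp
  ring

end cmp

/-! ## The package -/

section pk

variable {n : ℕ} {q : Cst} {d : Pk n} {z : VV n}

/-- **`Wc` on the package**, `wc = E (N + 1 + m)² / (1 + m)`. -/
theorem wc_pk {c : CD n} (w : Wd c.T) {Nf : Sm (VV n)}
    (h : Cmp c.T Nf (d.E q) (d.m q) (d.N q) z) {eta eta' : ℝ} (h0 : 0 ≤ eta)
    (h1 : eta ≤ eta') (h2 : eta' ≤ 1) :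
    Wc c.T w Nf (d.eB q) (d.hB q) (d.gB q) (d.fB q) (dB q d eta') ((eta • w.mi) ^ 2) 16 z := by
  have hm := h.m0
  have hE := h.E0
  have hN := h.N0
  have he := w.he z
  have hi := H856.B.mi_pos w z
  have hi1 := H856.B.mi_le w z
  have e1 : (((eta • w.mi) ^ 2 : Sm (VV n)) : VV n → ℝ) z = (eta * (w.mi : VV n → ℝ) z) ^ 2 := rfl
  have p1 : 0 ≤ dB q d eta' z := by unfold dB; positivity
  refine ⟨by norm_num, ?_, ?_, ?_, ?_, ?_, p1, ?_, ?_⟩
  · rw [Pk.eB_eq]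
    have := h.e
    have h3 : 0 ≤ (c.T.e : VV n → ℝ) z ^ 2 := sq_nonneg _
    linarith
  · rw [Pk.fB_eq]; exact h.wc w
  · rw [Pk.gB_eq]; positivity
  · rw [Pk.gB_eq]
    refine (h.hi w).trans ?_
    have h3 : 0 ≤ (c.T.e : VV n → ℝ) z * (w.mi : VV n → ℝ) z := by positivity
    linarith
  · rw [Pk.hB_eq]
    refine (h.h w).trans ?_
    have h3 : 0 ≤ (1 + d.m q z) / d.E q z := by positivity
    linarith
  · rw [e1]
    refine (h.d w h0 h1).trans ?_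
    change _ ≤ 16 * (eta' ^ 2 / (1 + d.m q z) ^ 2)
    have h3 : 0 ≤ eta' ^ 2 / (1 + d.m q z) ^ 2 := by positivity
    linarith
  · rw [e1]
    have h3 : eta * (w.mi : VV n → ℝ) z ≤ 1 := by
      calc eta * (w.mi : VV n → ℝ) z ≤ 1 * 1 :=
            mul_le_mul (h1.trans h2) hi1 hi.le zero_le_one
        _ = 1 := one_mul 1
    have h4 : 0 ≤ eta * (w.mi : VV n → ℝ) z := by positivity
    exact pow_le_one₀ h4 h3

/-- **`Wk` on the package**, `wc = E (N + 1 + m)² / (1 + m)`. -/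
theorem wk_pk {c : CD n} (w : Wd c.T) {Nf : Sm (VV n)}
    (h : Cmp c.T Nf (d.E q) (d.m q) (d.N q) z) {eta eta' : ℝ} (h0 : 0 ≤ eta)
    (h1 : eta ≤ eta') :
    Wk c.T w Nf (d.eB q) (d.hB q) (d.gB q) (d.fB q) (dB q d eta') 16 eta z := by
  have hm := h.m0
  have hE := h.E0
  have hN := h.N0
  have he := w.he z
  have hi := H856.B.mi_pos w z
  have p1 : 0 ≤ dB q d eta' z := by unfold dB; positivity
  refine ⟨?_, ?_, ?_, ?_, ?_, p1, ?_⟩
  · rw [Pk.eB_eq]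
    have := h.e
    have h3 : 0 ≤ (c.T.e : VV n → ℝ) z ^ 2 := sq_nonneg _
    linarith
  · rw [Pk.fB_eq]; exact h.wc w
  · rw [Pk.gB_eq]; positivity
  · rw [Pk.gB_eq]
    refine (h.hi w).trans ?_
    have h3 : 0 ≤ (c.T.e : VV n → ℝ) z * (w.mi : VV n → ℝ) z := by positivity
    linarith
  · rw [Pk.hB_eq]
    refine (h.h w).trans ?_
    have h3 : 0 ≤ (1 + d.m q z) / d.E q z := by positivity
    linarith
  · rw [← mul_pow]
    refine (h.d w h0 h1).trans ?_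
    change _ ≤ 16 * (eta' ^ 2 / (1 + d.m q z) ^ 2)
    have h3 : 0 ≤ eta' ^ 2 / (1 + d.m q z) ^ 2 := by positivity
    linarith

/-- `Wc` with `wc = E (1 + m)`. -/
theorem wc_pk' {c : CD n} (w : Wd c.T) {Nf : Sm (VV n)}
    (h : Cmp c.T Nf (d.E q) (d.m q) (d.N q) z) {eta eta' : ℝ} (h0 : 0 ≤ eta)
    (h1 : eta ≤ eta') (h2 : eta' ≤ 1) :
    Wc c.T w Nf (d.eB q) (d.hB q) (d.gB q) (d.wB q) (dB q d eta') ((eta • w.mi) ^ 2) 16 z :=
  { wc_pk w h h0 h1 h2 with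
    w1 := by rw [Pk.wB_eq]; exact h.wc' w }

variable (S : LitSm q d) (P : PkOk q d)

include S P in
/-- **`Wt` on the package**, `wc = E (N + 1 + m)² / (1 + m)`. -/
theorem wt_pk {Ω : Set (VV n)} {eta : ℝ} (h0 : 0 ≤ eta) (h1 : eta ≤ 1)
    (hE : ∀ z ∈ Ω, 1 + d.m q z ≤ d.E q z) (hN : ∀ z ∈ Ω, 0 ≤ d.N q z) :
    Wt univ Ω (d.eB q) (d.hB q) (d.gB q) (d.fB q) (dB q d eta) where
  ce := ((H856.O.E_sm S).pow 2).continuous.continuousOn
  ch := (((contDiff_const (c := (1 : ℝ))).add (H856.O.m_sm S)).div (H856.O.E_sm S)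
    fun z => (Real.exp_pos _).ne').continuous.continuousOn
  ci := (H856.O.hB_sm S).continuous.continuousOn
  cw := (H856.O.wB_sm S P).continuous.continuousOn
  cd := (H856.O.dB_sm S eta).continuous.continuousOn
  e1 z hz := by
    rw [Pk.eB_eq]
    have := H856.O.m_nn S z
    exact one_le_pow₀ (by linarith [hE z hz])
  h0 z hz := by
    rw [Pk.hB_eq]
    have := H856.O.m_nn S z
    have h2 : 0 < d.E q z := Real.exp_pos _
    positivity
  h1 z hz := by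
    rw [Pk.hB_eq, div_le_one (show 0 < d.E q z from Real.exp_pos _)]
    exact hE z hz
  i1 z hz := by
    have := H856.O.m_nn S z
    rw [Pk.gB_eq, le_div_iff₀ (by linarith), one_mul]
    exact hE z hz
  w1 z hz := by
    have hm := H856.O.m_nn S z
    have h2 := hE z hz
    have h3 := hN z hz
    rw [Pk.fB_eq, le_div_iff₀ (by linarith), one_mul]
    have h4 : 1 + d.m q z ≤ (d.N q z + 1 + d.m q z) ^ 2 := by nlinarith
    have h5 : (1 : ℝ) ≤ d.E q z := by linarith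
    exact h4.trans (le_mul_of_one_le_left (sq_nonneg _) h5)
  d0 z _ := H856.O.dB_nn S eta z
  d1 z _ := (H856.O.dB_le S eta z).trans (pow_le_one₀ h0 h1)

include S P in
/-- `Wt` with `wc = E (1 + m)`. -/
theorem wt_pk' {Ω : Set (VV n)} {eta : ℝ} (h0 : 0 ≤ eta) (h1 : eta ≤ 1)
    (hE : ∀ z ∈ Ω, 1 + d.m q z ≤ d.E q z) (hN : ∀ z ∈ Ω, 0 ≤ d.N q z) :
    Wt univ Ω (d.eB q) (d.hB q) (d.gB q) (d.wB q) (dB q d eta) :=
  { wt_pk S P h0 h1 hE hN with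
    cw := ((H856.O.E_sm S).mul ((contDiff_const (c := (1 : ℝ))).add
      (H856.O.m_sm S))).continuous.continuousOn
    w1 := fun z hz => by
      have hm := H856.O.m_nn S z
      have h2 := hE z hz
      rw [Pk.wB_eq]
      nlinarith }

end pk

end Vale.Agent.P088.R2.H593.B1
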