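import Vale.Agent.P088.R2.H696.B1.Cmp
import Vale.Agent.P088.R2.H867.Z.CbT

/-!
# P088, zone B1: row X from the existence of the frozen data
-/

noncomputable section

namespace Vale.Agent.P088.R2.H593.B1

open Vale.Agent.P088.R2.H31.EP

variable {n : ℕ}

/-- **Row X**: the frozen data exist on every cell which is not empty. -/
theorem rowX (hn : 1 ≤ n) : H867.CbT.RowX n := fun _ _ hA he hA1 h0 =>
  (H696.B1.fro_ex' hn hA he (.of hA1) (.of h0)).mono fun _ h d hd p₀ hne => by
    obtain ⟨c, Nf, g, hc⟩ := h d hd p₀ hne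
    exact ⟨c, g.fro, g.mn, Nf, g.nf, g.ok, hc⟩

end Vale.Agent.P088.R2.H593.B1
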